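import Vale.Agent.P365.MathlibUsed

/-!
# P365L: the Anderson operator on `ℓ²(ℤ²)` with an arbitrary real potential, and its spectral
measures.
-/

namespace P365L

open MeasureTheory Complex
open scoped ENNReal InnerProductSpace

/-- sites of the square lattice -/
abbrev Site : Type := ℤ × ℤ

/-- the Hilbert space `ℓ²(ℤ²)` -/
abbrev L2 : Type := lp (fun _ : Site => ℂ) 2

/-- nearest neighbour hopping `(Δψ)(x) = ∑_{|y-x|₁=1} ψ(y)` -/
def hop (u : Site → ℂ) (x : Site) : ℂ :=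
  u (x.1 + 1, x.2) + u (x.1 - 1, x.2) + u (x.1, x.2 + 1) + u (x.1, x.2 - 1)

/-- `u = (H_V - z)⁻¹ ψ` for the (maximal, self-adjoint) operator `H_V = Δ + V`: `u` is the
square-summable solution of `Δu + Vu - zu = ψ`. -/
def IsResolvent (V : Site → ℝ) (z : ℂ) (ψ u : L2) : Prop :=
  ∀ x : Site, hop (fun y => u y) x + ((V x : ℂ) - z) * u x = ψ x

/-- `μ` is the spectral measure of `ψ` for `H_V = Δ + V`: a finite measure on `ℝ` with
`⟨ψ, (H_V - z)⁻¹ ψ⟩ = ∫ dμ(t)/(t - z)` for all `z` in the upper half plane. -/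
structure IsSpectralMeasure (V : Site → ℝ) (ψ : L2) (μ : Measure ℝ) : Prop where
  finite : IsFiniteMeasure μ
  transform : ∀ z : ℂ, 0 < z.im → ∃ u : L2, IsResolvent V z ψ u ∧
    ⟪ψ, u⟫_ℂ = ∫ t : ℝ, ((t : ℂ) - z)⁻¹ ∂μ

end P365L
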