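import Mathlib
import Vale.Agent.P365L.Defs

/-!
# P365L: Poisson transforms and singularity of measures on the line.
-/

namespace P365L

open MeasureTheory Complex Filter Topology
open scoped ENNReal InnerProductSpace

lemma poisson_le (E t : ℝ) {η : ℝ} (hη : 0 < η) : η / ((t - E) ^ 2 + η ^ 2) ≤ 1 / η := by
  rw [div_le_div_iff₀ (by positivity) hη]
  nlinarith [sq_nonneg (t - E)]

lemma poisson_nonneg (E t : ℝ) {η : ℝ} (hη : 0 < η) : 0 ≤ η / ((t - E) ^ 2 + η ^ 2) := by
  positivity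

lemma poisson_integrable {μ : Measure ℝ} [IsFiniteMeasure μ] (E : ℝ) {η : ℝ} (hη : 0 < η) :
    Integrable (fun t : ℝ => η / ((t - E) ^ 2 + η ^ 2)) μ := by
  have hm : Measurable (fun t : ℝ => η / ((t - E) ^ 2 + η ^ 2)) := by fun_prop
  refine Integrable.of_bound (C := 1 / η) hm.aestronglyMeasurable (ae_of_all _ fun t => ?_)
  rw [Real.norm_of_nonneg (poisson_nonneg E t hη)]
  exact poisson_le E t hη

/-- imaginary part of the Borel transform -/
theorem im_transform {μ : Measure ℝ} [IsFiniteMeasure μ] (E : ℝ) {η : ℝ} (hη : 0 < η) :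
    (∫ t : ℝ, ((t : ℂ) - (E + η * I))⁻¹ ∂μ).im = ∫ t, η / ((t - E) ^ 2 + η ^ 2) ∂μ := by
  have hint : Integrable (fun t : ℝ => ((t : ℂ) - (E + η * I))⁻¹) μ := by
    refine Integrable.of_bound (C := 1 / η) (by fun_prop) (ae_of_all _ fun t => ?_)
    rw [norm_inv, one_div]
    refine inv_anti₀ hη ?_
    have h := Complex.abs_im_le_norm ((t : ℂ) - (E + η * I))
    have h2 : ((t : ℂ) - (E + η * I)).im = - η := by simp
    rw [h2, abs_neg, abs_of_pos hη] at h
    exact h
  have h1 : (∫ t : ℝ, ((t : ℂ) - (E + η * I))⁻¹ ∂μ).im =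
      ∫ t : ℝ, (((t : ℂ) - (E + η * I))⁻¹).im ∂μ :=
    (integral_im hint).symm
  rw [h1]
  refine integral_congr_ae (ae_of_all _ fun t => ?_)
  simp only [Complex.inv_im]
  have h2 : ((t : ℂ) - (E + η * I)).im = - η := by simp
  have h3 : ((t : ℂ) - (E + η * I)).re = t - E := by simp
  rw [Complex.normSq_apply, h2, h3]
  congr 1
  · ring
  · ring

lemma lintegral_poisson_one (t : ℝ) {η : ℝ} (hη : 0 < η) :
    ∫⁻ E : ℝ, ENNReal.ofReal (η / ((t - E) ^ 2 + η ^ 2)) = ENNReal.ofReal Real.pi := by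
  have hne : η.toNNReal ≠ 0 := (Real.toNNReal_pos.2 hη).ne'
  have h1 := ProbabilityTheory.lintegral_cauchyPDF_eq_one t hne
  have h2 : ∀ E : ℝ, ENNReal.ofReal (η / ((t - E) ^ 2 + η ^ 2)) =
      ENNReal.ofReal Real.pi * ProbabilityTheory.cauchyPDF t η.toNNReal E := by
    intro E
    rw [ProbabilityTheory.cauchyPDF_def, ProbabilityTheory.cauchyPDFReal_def,
      ← ENNReal.ofReal_mul Real.pi_pos.le]
    congr 1
    have hp := Real.pi_pos.ne'
    rw [Real.coe_toNNReal η hη.le, sub_sq_comm t E]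
    field_simp
  simp only [h2]
  rw [lintegral_const_mul' _ _ ENNReal.ofReal_ne_top, h1, mul_one]

/-- total integral of the Poisson transform -/
theorem lintegral_poisson {μ : Measure ℝ} [IsFiniteMeasure μ] {η : ℝ} (hη : 0 < η) :
    ∫⁻ E : ℝ, ENNReal.ofReal (∫ t, η / ((t - E) ^ 2 + η ^ 2) ∂μ) ≤
      ENNReal.ofReal Real.pi * μ Set.univ := by
  have h1 : ∀ E : ℝ, ENNReal.ofReal (∫ t, η / ((t - E) ^ 2 + η ^ 2) ∂μ) =
      ∫⁻ t, ENNReal.ofReal (η / ((t - E) ^ 2 + η ^ 2)) ∂μ := fun E =>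
    ofReal_integral_eq_lintegral_ofReal (poisson_integrable E hη)
      (ae_of_all _ fun t => poisson_nonneg E t hη)
  simp only [h1]
  rw [lintegral_lintegral_swap]
  · simp only [lintegral_poisson_one _ hη]
    rw [lintegral_const]
  · refine Measurable.aemeasurable ?_
    fun_prop

lemma ball_le_poisson {μ : Measure ℝ} [IsFiniteMeasure μ] (E : ℝ) {η : ℝ} (hη : 0 < η) :
    μ.real (Metric.closedBall E η) / (2 * η) ≤ ∫ t, η / ((t - E) ^ 2 + η ^ 2) ∂μ := by
  have h1 : ∫ t, (Metric.closedBall E η).indicator (fun _ => 1 / (2 * η)) t ∂μ ≤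
      ∫ t, η / ((t - E) ^ 2 + η ^ 2) ∂μ := by
    refine integral_mono ?_ (poisson_integrable E hη) ?_
    · exact (integrable_const _).indicator Metric.isClosed_closedBall.measurableSet
    · intro t
      simp only
      by_cases ht : t ∈ Metric.closedBall E η
      · rw [Set.indicator_of_mem ht]
        rw [Metric.mem_closedBall, Real.dist_eq] at ht
        have h2 : (t - E) ^ 2 ≤ η ^ 2 := by
          rw [← sq_abs (t - E)]
          exact pow_le_pow_left₀ (abs_nonneg _) ht 2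
        rw [div_le_div_iff₀ (by positivity) (by positivity)]
        nlinarith
      · rw [Set.indicator_of_notMem ht]
        exact poisson_nonneg E t hη
  rw [integral_indicator_const _ Metric.isClosed_closedBall.measurableSet] at h1
  rw [smul_eq_mul] at h1
  calc μ.real (Metric.closedBall E η) / (2 * η)
      = μ.real (Metric.closedBall E η) * (1 / (2 * η)) := by ring
    _ ≤ _ := h1

/-- if the Poisson transforms vanish a.e. in the liminf along a sequence then the measure is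
singular -/
theorem singular_of_poisson {μ : Measure ℝ} [IsFiniteMeasure μ] (η : ℕ → ℝ) (hη : ∀ k, 0 < η k)
    (hη0 : Tendsto η atTop (𝓝 0))
    (h : ∀ᵐ E : ℝ, ∀ ε > 0, ∃ᶠ k in atTop, ∫ t, η k / ((t - E) ^ 2 + η k ^ 2) ∂μ < ε) :
    μ ⟂ₘ (volume : Measure ℝ) := by
  rw [← Measure.rnDeriv_eq_zero]
  filter_upwards [h, Besicovitch.ae_tendsto_rnDeriv μ (volume : Measure ℝ)] with E hE hlim
  have hη1 : Tendsto η atTop (𝓝[>] 0) :=
    tendsto_nhdsWithin_iff.2 ⟨hη0, Eventually.of_forall hη⟩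
  have h2 := hlim.comp hη1
  rw [Pi.zero_apply]
  by_contra hne
  have hpos : 0 < μ.rnDeriv volume E := pos_iff_ne_zero.2 hne
  obtain ⟨δ, hδ0, hδ⟩ : ∃ δ : ℝ, 0 < δ ∧ ENNReal.ofReal δ < μ.rnDeriv volume E := by
    obtain ⟨q, hq0, hq⟩ := ENNReal.lt_iff_exists_real_btwn.1 hpos
    exact ⟨q, by simpa using hq.1, hq.2⟩
  have h3 : ∀ᶠ k in atTop, ENNReal.ofReal δ <
      μ (Metric.closedBall E (η k)) / volume (Metric.closedBall E (η k)) :=
    h2.eventually (lt_mem_nhds hδ)
  obtain ⟨k, hk1, hk2⟩ := ((hE δ hδ0).and_eventually h3).exists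
  have h4 := (ball_le_poisson (μ := μ) E (hη k)).trans_lt hk1
  rw [Real.volume_closedBall] at hk2
  have h5 : μ (Metric.closedBall E (η k)) = ENNReal.ofReal (μ.real (Metric.closedBall E (η k))) :=
    (ENNReal.ofReal_toReal (measure_ne_top _ _)).symm
  rw [h5, ← ENNReal.ofReal_div_of_pos (by linarith [hη k]),
    ENNReal.ofReal_lt_ofReal_iff_of_nonneg hδ0.le] at hk2
  linarith

end P365L
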